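import Vale.Agent.P273.H214.WCut2
import Vale.Agent.P273.H604.ICut

/-!
# P273, row ASY1: the cut-offs at the roots for one mark near one node

* `abs_fderiv_chiW_le`: the derivative of `chiW` is a weighted average of differences of
  logarithmic derivatives;
* `dchiW_neck`, `window`, `EW_neck`: one mark in the neck of a pair of roots `e ± s`.
-/

noncomputable section

namespace Vale.Agent.P273.H174

open scoped ContDiff Topology ComplexConjugate
open Set Filter Finset
open H214 (Bs hh chiW Cf hh_pos hh_le chiW_eq_zero chiW_eq_one EWc Qj Pj Dj sum_pos_of_inj)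

theorem exists_bd : ∃ C : ℝ, 0 < C ∧ ∀ t, |deriv Real.smoothTransition t| ≤ C ∧
    (deriv Real.smoothTransition t ≠ 0 → 0 ≤ t ∧ t ≤ 1) := by
  have hc : Continuous (deriv Real.smoothTransition) :=
    (Real.smoothTransition.contDiff (n := 1)).continuous_deriv le_rfl
  have h0 : ∀ t < 0, deriv Real.smoothTransition t = 0 := by
    intro t ht
    have h : Real.smoothTransition =ᶠ[𝓝 t] fun _ => 0 := by
      filter_upwards [Iio_mem_nhds ht] with s hs
      exact Real.smoothTransition.zero_of_nonpos (le_of_lt hs)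
    rw [h.deriv_eq, deriv_const]
  have h1 : ∀ t > 1, deriv Real.smoothTransition t = 0 := by
    intro t ht
    have h : Real.smoothTransition =ᶠ[𝓝 t] fun _ => 1 := by
      filter_upwards [Ioi_mem_nhds ht] with s hs
      exact Real.smoothTransition.one_of_one_le (le_of_lt hs)
    rw [h.deriv_eq, deriv_const]
  obtain ⟨C, hC⟩ := isCompact_Icc.exists_bound_of_continuousOn (s := Icc (0 : ℝ) 1) hc.continuousOn
  refine ⟨|C| + 1, by positivity, fun t => ⟨?_, ?_⟩⟩
  · by_cases h : t ∈ Icc (0 : ℝ) 1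
    · have := hC t h
      rw [Real.norm_eq_abs] at this
      linarith [le_abs_self C]
    · rw [Set.mem_Icc, not_and_or, not_le, not_le] at h
      rcases h with h | h
      · rw [h0 t h, abs_zero]; positivity
      · rw [h1 t h, abs_zero]; positivity
  · intro h
    constructor
    · by_contra h'
      exact h (h0 t (not_le.1 h'))
    · by_contra h'
      exact h (h1 t (not_le.1 h'))

/-- the bound of the derivative of the smooth transition -/
def C0 : ℝ := exists_bd.choose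

theorem C0_pos : 0 < C0 := exists_bd.choose_spec.1

theorem abs_deriv_le (t : ℝ) : |deriv Real.smoothTransition t| ≤ C0 :=
  (exists_bd.choose_spec.2 t).1

theorem mem_of_deriv {t : ℝ} (h : deriv Real.smoothTransition t ≠ 0) : 0 ≤ t ∧ t ≤ 1 :=
  (exists_bd.choose_spec.2 t).2 h

theorem hasDerivAt_normSq {z : ℝ → ℂ} {z' : ℂ} {r : ℝ} (h : HasDerivAt z z' r) (h0 : z r ≠ 0) :
    HasDerivAt (fun r => ‖z r‖ ^ 2) (2 * ‖z r‖ ^ 2 * (z' / z r).re) r := by
  refine h.norm_sq.congr_deriv ?_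
  have h1 : ‖z r‖ ^ 2 ≠ 0 := pow_ne_zero _ (norm_ne_zero_iff.2 h0)
  have h2 : (z' / z r).re * ‖z r‖ ^ 2 = (z' * conj (z r)).re := by
    rw [div_eq_mul_inv, Complex.inv_def, ← mul_assoc, Complex.re_mul_ofReal,
      Complex.normSq_eq_norm_sq]
    field_simp
  rw [Complex.inner]
  rw [mul_assoc, mul_comm (‖z r‖ ^ 2), h2]

/-- the weights of the isolation scale -/
def wt (b : Bs) (j i : Fin 6) : ℝ := hh b j * (‖b i - b j‖ ^ 2)⁻¹

theorem wt_nonneg {b : Bs} (hb : b ∈ Cf) (j i : Fin 6) : 0 ≤ wt b j i :=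
  mul_nonneg (hh_pos hb j).le (by positivity)

theorem sum_wt {b : Bs} (hb : b ∈ Cf) (j : Fin 6) : ∑ i ∈ univ.erase j, wt b j i = 1 := by
  unfold wt
  rw [← Finset.mul_sum, hh]
  exact inv_mul_cancel₀ (sum_pos_of_inj hb j).ne'

theorem wt_le_one {b : Bs} (hb : b ∈ Cf) {j i : Fin 6} (hi : i ≠ j) : wt b j i ≤ 1 := by
  rw [← sum_wt hb j]
  exact Finset.single_le_sum (f := fun i => wt b j i) (fun i _ => wt_nonneg hb j i)
    (Finset.mem_erase.2 ⟨hi, mem_univ _⟩)

theorem hasDerivAt_ratio {b : Bs} (hb : b ∈ Cf) {j : Fin 6} {x : ℂ} (hx : x ≠ b j) (β : Bs)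
    (ζ : ℂ) : HasDerivAt (fun r : ℝ => ‖(x + r * ζ) - (b j + r * β j)‖ ^ 2 *
      ∑ i ∈ univ.erase j, (‖(b i + r * β i) - (b j + r * β j)‖ ^ 2)⁻¹)
      (‖x - b j‖ ^ 2 / hh b j * (2 * ∑ i ∈ univ.erase j, wt b j i *
        ((ζ - β j) / (x - b j) - (β i - β j) / (b i - b j)).re)) 0 := by
  have hz : ∀ (u v a c : ℂ), HasDerivAt (fun r : ℝ => (u + r * a) - (v + r * c)) (a - c) 0 := by
    intro u v a c
    have h1 : HasDerivAt (fun r : ℝ => (r : ℂ)) 1 0 := Complex.ofRealCLM.hasDerivAt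
    have h2 := ((h1.mul_const a).const_add u).fun_sub ((h1.mul_const c).const_add v)
    simpa using h2
  have h1 := hasDerivAt_normSq (hz x (b j) ζ (β j)) (by simpa [sub_eq_zero] using hx)
  have h2 : ∀ i ∈ univ.erase j, HasDerivAt
      (fun r : ℝ => (‖(b i + r * β i) - (b j + r * β j)‖ ^ 2)⁻¹)
      (-(2 * (‖b i - b j‖ ^ 2)⁻¹ * ((β i - β j) / (b i - b j)).re)) 0 := by
    intro i hi
    have hi' : b i - b j ≠ 0 := sub_ne_zero.2 (Function.Injective.ne hb (Finset.mem_erase.1 hi).1)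
    have h3 := hasDerivAt_normSq (hz (b i) (b j) (β i) (β j)) (by simpa using hi')
    have h4 : ‖b i - b j‖ ^ 2 ≠ 0 := pow_ne_zero _ (norm_ne_zero_iff.2 hi')
    have h5 := h3.fun_inv (by simpa using hi')
    refine h5.congr_deriv ?_
    simp only [Complex.ofReal_zero, zero_mul, add_zero]
    field_simp
  have h3 := h1.fun_mul (HasDerivAt.fun_sum h2)
  refine h3.congr_deriv ?_
  simp only [Complex.ofReal_zero, zero_mul, add_zero]
  have hS := sum_pos_of_inj hb j
  have e1 : ∑ i ∈ univ.erase j, wt b j i * ((ζ - β j) / (x - b j) - (β i - β j) / (b i - b j)).re =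
      ((ζ - β j) / (x - b j)).re - hh b j * ∑ i ∈ univ.erase j,
        (‖b i - b j‖ ^ 2)⁻¹ * ((β i - β j) / (b i - b j)).re := by
    have : ∀ i ∈ univ.erase j, wt b j i *
        ((ζ - β j) / (x - b j) - (β i - β j) / (b i - b j)).re =
        wt b j i * ((ζ - β j) / (x - b j)).re - hh b j * ((‖b i - b j‖ ^ 2)⁻¹ *
          ((β i - β j) / (b i - b j)).re) := by
      intro i _
      rw [Complex.sub_re]; unfold wt; ring
    rw [Finset.sum_congr rfl this, Finset.sum_sub_distrib, ← Finset.sum_mul, sum_wt hb j, one_mul,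
      ← Finset.mul_sum]
  have e2 : ∑ i ∈ univ.erase j, -(2 * (‖b i - b j‖ ^ 2)⁻¹ * ((β i - β j) / (b i - b j)).re) =
      -(2 * ∑ i ∈ univ.erase j, (‖b i - b j‖ ^ 2)⁻¹ * ((β i - β j) / (b i - b j)).re) := by
    rw [Finset.sum_neg_distrib, Finset.mul_sum]
    congr 1
    exact Finset.sum_congr rfl fun i _ => by ring
  rw [e1, e2]
  have e3 : hh b j = (∑ i ∈ univ.erase j, (‖b i - b j‖ ^ 2)⁻¹)⁻¹ := rfl
  rw [e3]
  generalize ∑ i ∈ univ.erase j, (‖b i - b j‖ ^ 2)⁻¹ = S0 at hS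
  generalize ∑ i ∈ univ.erase j, (‖b i - b j‖ ^ 2)⁻¹ * ((β i - β j) / (b i - b j)).re = T0
  generalize ((ζ - β j) / (x - b j)).re = u0
  field_simp
  ring

/-- **the derivative of `chiW`**: a weighted average of differences of logarithmic derivatives -/
theorem abs_fderiv_chiW_le {b : Bs} (hb : b ∈ Cf) {j : Fin 6} {x : ℂ} (hx : x ≠ b j) (β : Bs)
    (ζ : ℂ) : |fderiv ℝ (fun p : Bs × ℂ => chiW p.1 j p.2) (b, x) (β, ζ)| ≤
      4 * C0 * ∑ i ∈ univ.erase j, wt b j i *
        ‖(ζ - β j) / (x - b j) - (β i - β j) / (b i - b j)‖ := by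
  have h1 := (H214.contDiffAt_chiW hb j x).differentiableAt (by simp)
  have h2 : HasDerivAt (fun r : ℝ => ((b, x) : Bs × ℂ) + r • (β, ζ)) (β, ζ) 0 := by
    have := ((hasDerivAt_id (0 : ℝ)).smul_const ((β, ζ) : Bs × ℂ)).const_add ((b, x) : Bs × ℂ)
    simpa using this
  have h3 : HasDerivAt (fun r : ℝ => chiW (b + r • β) j (x + r • ζ))
      (fderiv ℝ (fun p : Bs × ℂ => chiW p.1 j p.2) (b, x) (β, ζ)) 0 := by
    have h4 : HasFDerivAt (fun p : Bs × ℂ => chiW p.1 j p.2)
        (fderiv ℝ (fun p : Bs × ℂ => chiW p.1 j p.2) (b, x)) (((b, x) : Bs × ℂ) + (0 : ℝ) • (β, ζ)) := by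
      simpa using h1.hasFDerivAt
    exact h4.comp_hasDerivAt (0 : ℝ) h2
  set R : ℝ := ‖x - b j‖ ^ 2 / hh b j with hR
  set S : ℝ := ∑ i ∈ univ.erase j, wt b j i *
        ((ζ - β j) / (x - b j) - (β i - β j) / (b i - b j)).re with hS
  have h5 : HasDerivAt (fun r : ℝ => chiW (b + r • β) j (x + r • ζ))
      (deriv Real.smoothTransition (2 - 64 * R) * (-(64 * (R * (2 * S))))) 0 := by
    have h6 := hasDerivAt_ratio hb hx β ζ
    have h7 : HasDerivAt (fun r : ℝ => 2 - 64 * (‖(x + r * ζ) - (b j + r * β j)‖ ^ 2 *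
        ∑ i ∈ univ.erase j, (‖(b i + r * β i) - (b j + r * β j)‖ ^ 2)⁻¹))
        (-(64 * (R * (2 * S)))) 0 := by
      have := (h6.const_mul 64).const_sub 2
      exact this
    have h8 : HasDerivAt Real.smoothTransition (deriv Real.smoothTransition (2 - 64 * R))
        (2 - 64 * R) :=
      (((Real.smoothTransition.contDiff (n := 1)).differentiable (by simp)) _).hasDerivAt
    have h9 : (2 - 64 * (‖(x + ((0 : ℝ) : ℂ) * ζ) - (b j + ((0 : ℝ) : ℂ) * β j)‖ ^ 2 *
        ∑ i ∈ univ.erase j, (‖(b i + ((0 : ℝ) : ℂ) * β i) - (b j + ((0 : ℝ) : ℂ) * β j)‖ ^ 2)⁻¹)) =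
        2 - 64 * R := by
      simp only [Complex.ofReal_zero, zero_mul, add_zero]
      rw [hR, hh, div_inv_eq_mul]
    have h10 := HasDerivAt.comp (h₂ := Real.smoothTransition) (0 : ℝ) (by rw [h9]; exact h8) h7
    refine h10.congr_of_eventuallyEq (Eventually.of_forall fun r => ?_)
    simp only [Function.comp_apply, chiW, hh, Pi.add_apply, Pi.smul_apply, Complex.real_smul,
      div_inv_eq_mul, mul_assoc]
  rw [h3.unique h5, abs_mul, abs_neg]
  by_cases h0 : deriv Real.smoothTransition (2 - 64 * R) = 0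
  · rw [h0, abs_zero, zero_mul]
    exact mul_nonneg (by linarith [C0_pos]) (Finset.sum_nonneg fun i _ =>
      mul_nonneg (wt_nonneg hb j i) (norm_nonneg _))
  have h6 := mem_of_deriv h0
  have hR0 : 0 ≤ R := div_nonneg (by positivity) (hh_pos hb j).le
  have h7 : |S| ≤ ∑ i ∈ univ.erase j, wt b j i *
        ‖(ζ - β j) / (x - b j) - (β i - β j) / (b i - b j)‖ := by
    refine (Finset.abs_sum_le_sum_abs _ _).trans (Finset.sum_le_sum fun i _ => ?_)
    rw [abs_mul, abs_of_nonneg (wt_nonneg hb j i)]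
    exact mul_le_mul_of_nonneg_left (Complex.abs_re_le_norm _) (wt_nonneg hb j i)
  have h8 : |64 * (R * (2 * S))| ≤ 4 * ∑ i ∈ univ.erase j, wt b j i *
        ‖(ζ - β j) / (x - b j) - (β i - β j) / (b i - b j)‖ := by
    have : |64 * (R * (2 * S))| = (64 * R) * 2 * |S| := by
      rw [show 64 * (R * (2 * S)) = (64 * R * 2) * S by ring, abs_mul, abs_of_nonneg (by positivity)]
    rw [this]
    have h9 : 64 * R ≤ 2 := by linarith
    calc (64 * R) * 2 * |S| ≤ 2 * 2 * |S| := by gcongr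
      _ ≤ _ := by linarith
  calc _ ≤ C0 * (4 * ∑ i ∈ univ.erase j, wt b j i *
        ‖(ζ - β j) / (x - b j) - (β i - β j) / (b i - b j)‖) :=
        mul_le_mul (abs_deriv_le _) h8 (abs_nonneg _) C0_pos.le
    _ = _ := by ring

end Vale.Agent.P273.H174

end
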