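import Vale.Agent.P273.H174.Cut1
import Vale.Agent.P273.H604.CutBd
import Vale.Agent.P273.H730.One1

/-!
# P273, row ASY1: the cut-offs in the neck of a pair of roots

`Pair b j j' e s r`: `b j = e + s`, `b j' = e - s`, the other four roots at distance at least `r`
from `e`, `64 |s| ≤ r`. A mark in the neck: `x = e + (X + Y)/2`, `X Y = s^2`.

* `window`: on the support of `chiW b j` one has `|s|/4 ≤ |X|, |Y| ≤ 4 |s|`;
* `dchiW_neck`: the derivative of `chiW b j` in the direction `(lX, lY, δ)`.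
-/

noncomputable section

namespace Vale.Agent.P273.H174

open scoped ContDiff Topology
open Set Filter Finset
open H214 (Bs hh chiW Cf hh_pos hh_le chiW_eq_zero chiW_eq_one EWc EWv Qj Pj Dj sum_pos_of_inj)

/-- Two roots `e ± s`, the others far away. -/
structure Pair (b : Bs) (j j' : Fin 6) (e s : ℂ) (r : ℝ) : Prop where
  hb : b ∈ Cf
  ne : j' ≠ j
  hj : b j = e + s
  hj' : b j' = e - s
  far : ∀ i, i ≠ j → i ≠ j' → r ≤ ‖b i - e‖
  small : 64 * ‖s‖ ≤ r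

/-- A point of the neck. -/
structure NPt (e s x X Y : ℂ) : Prop where
  hx : x = e + (X + Y) / 2
  hXY : X * Y = s ^ 2

namespace Pair

variable {b : Bs} {j j' : Fin 6} {e s : ℂ} {r : ℝ}

theorem symm (P : Pair b j j' e s r) : Pair b j' j e (-s) r :=
  ⟨P.hb, P.ne.symm, by rw [P.hj']; ring, by rw [P.hj]; ring, fun i h1 h2 => P.far i h2 h1, by
    rw [norm_neg]; exact P.small⟩

theorem s_ne (P : Pair b j j' e s r) : s ≠ 0 := by
  rintro rfl
  exact P.ne (P.hb (by rw [P.hj, P.hj']; ring))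

theorem s_pos (P : Pair b j j' e s r) : 0 < ‖s‖ := norm_pos_iff.2 P.s_ne

theorem r_pos (P : Pair b j j' e s r) : 0 < r := by
  have := P.s_pos
  have := P.small
  linarith

theorem norm_sub' (P : Pair b j j' e s r) : ‖b j' - b j‖ = 2 * ‖s‖ := by
  rw [P.hj, P.hj', show e - s - (e + s) = -(2 * s) by ring, norm_neg, norm_mul]
  norm_num

theorem far' (P : Pair b j j' e s r) {i : Fin 6} (h1 : i ≠ j) (h2 : i ≠ j') :
    63 / 64 * r ≤ ‖b i - b j‖ := by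
  have h3 := P.far i h1 h2
  have h4 : ‖b i - e‖ ≤ ‖b i - b j‖ + ‖s‖ := by
    have : b i - e = (b i - b j) + s := by rw [P.hj]; ring
    rw [this]; exact norm_add_le _ _
  have h5 := P.small
  linarith

theorem hh_le (P : Pair b j j' e s r) : hh b j ≤ 4 * ‖s‖ ^ 2 := by
  have h := H214.hh_le P.hb P.ne
  rw [P.norm_sub'] at h
  linarith

theorem hh_ge (P : Pair b j j' e s r) : 2 * ‖s‖ ^ 2 ≤ hh b j := by
  have hs := P.s_pos
  have hr := P.r_pos
  have hmem : j' ∈ univ.erase j := Finset.mem_erase.2 ⟨P.ne, mem_univ _⟩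
  have hsum : (∑ i ∈ univ.erase j, (‖b i - b j‖ ^ 2)⁻¹) ≤ (2 * ‖s‖ ^ 2)⁻¹ := by
    rw [← Finset.add_sum_erase _ _ hmem, P.norm_sub']
    have h1 : (∑ i ∈ (univ.erase j).erase j', (‖b i - b j‖ ^ 2)⁻¹) ≤
        ∑ _i ∈ (univ.erase j).erase j', (24 * ‖s‖ ^ 2)⁻¹ := by
      refine Finset.sum_le_sum fun i hi => ?_
      rw [Finset.mem_erase, Finset.mem_erase] at hi
      have h2 := P.far' hi.2.1 hi.1
      have h3 := P.small
      refine inv_anti₀ (by positivity) ?_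
      have h4 : 5 * ‖s‖ ≤ ‖b i - b j‖ := by linarith
      have h5 := pow_le_pow_left₀ (by positivity) h4 2
      nlinarith
    have h2 : (∑ _i ∈ (univ.erase j).erase j', (24 * ‖s‖ ^ 2)⁻¹) ≤ (4 * ‖s‖ ^ 2)⁻¹ := by
      rw [Finset.sum_const, nsmul_eq_mul]
      have h3 : (((univ.erase j).erase j').card : ℝ) ≤ 6 := by
        exact_mod_cast (Finset.card_le_univ _)
      have h4 : (24 * ‖s‖ ^ 2)⁻¹ = (1 / 6) * (4 * ‖s‖ ^ 2)⁻¹ := by
        field_simp; norm_num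
      rw [h4]
      have h5 : 0 ≤ (4 * ‖s‖ ^ 2)⁻¹ := by positivity
      calc _ ≤ 6 * (1 / 6 * (4 * ‖s‖ ^ 2)⁻¹) := mul_le_mul_of_nonneg_right h3 (by positivity)
        _ = _ := by ring
    have h6 : ((2 * ‖s‖) ^ 2)⁻¹ + (4 * ‖s‖ ^ 2)⁻¹ = (2 * ‖s‖ ^ 2)⁻¹ := by
      field_simp; norm_num
    linarith
  have h := sum_pos_of_inj P.hb j
  have := inv_anti₀ h hsum
  rw [inv_inv] at this
  exact this

theorem wt_le (P : Pair b j j' e s r) {i : Fin 6} (h1 : i ≠ j) (h2 : i ≠ j') :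
    wt b j i ≤ 5 * (‖s‖ / r) ^ 2 := by
  have hs := P.s_pos
  have hr := P.r_pos
  have h3 := P.far' h1 h2
  have h4 : (‖b i - b j‖ ^ 2)⁻¹ ≤ ((63 / 64 * r) ^ 2)⁻¹ :=
    inv_anti₀ (by positivity) (pow_le_pow_left₀ (by positivity) h3 2)
  calc wt b j i ≤ (4 * ‖s‖ ^ 2) * ((63 / 64 * r) ^ 2)⁻¹ :=
        mul_le_mul P.hh_le h4 (by positivity) (by positivity)
    _ = (4 * (64 / 63) ^ 2) * (‖s‖ / r) ^ 2 := by field_simp
    _ ≤ 5 * (‖s‖ / r) ^ 2 := mul_le_mul_of_nonneg_right (by norm_num) (by positivity)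

end Pair

section Neck

variable {b : Bs} {j j' : Fin 6} {e s x X Y : ℂ} {r : ℝ}

theorem NPt.symm (N : NPt e s x X Y) : NPt e (-s) x X Y := ⟨N.hx, by rw [N.hXY]; ring⟩

theorem geo (P : Pair b j j' e s r) (N : NPt e s x X Y) :
    (x - b j) * (x - b j') = ((X - Y) / 2) ^ 2 := by
  rw [P.hj, P.hj', N.hx]
  linear_combination N.hXY

theorem geo_norm (P : Pair b j j' e s r) (N : NPt e s x X Y) :
    ‖x - b j‖ * ‖x - b j'‖ = ‖(X - Y) / 2‖ ^ 2 := by
  rw [← norm_mul, geo P N, norm_pow]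

theorem partner_le (P : Pair b j j' e s r) : ‖x - b j'‖ ≤ ‖x - b j‖ + 2 * ‖s‖ := by
  have : x - b j' = (x - b j) + 2 * s := by rw [P.hj, P.hj']; ring
  rw [this]
  refine (norm_add_le _ _).trans_eq ?_
  rw [norm_mul]; norm_num

/-- **the window** of the cut-off at a root of the pair -/
theorem window (P : Pair b j j' e s r) (N : NPt e s x X Y) (h : 32 * ‖x - b j‖ ^ 2 ≤ hh b j) :
    ‖s‖ / 4 ≤ ‖X‖ ∧ ‖X‖ ≤ 4 * ‖s‖ ∧ ‖s‖ / 4 ≤ ‖Y‖ ∧ ‖Y‖ ≤ 4 * ‖s‖ := by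
  have hs := P.s_pos
  have h1 := P.hh_le
  have ha : ‖x - b j‖ ≤ 3 / 8 * ‖s‖ := by
    refine le_of_sq_le_sq ?_ (by positivity)
    nlinarith
  have h2 : ‖x - b j'‖ ≤ _ := partner_le (x := x) P
  have h3 := geo_norm P N
  have hD : ‖(X - Y) / 2‖ ≤ ‖s‖ := by
    refine le_of_sq_le_sq ?_ (by positivity)
    rw [← h3]
    have := mul_le_mul ha (h2.trans (by linarith : _ ≤ 19 / 8 * ‖s‖)) (norm_nonneg _) (by positivity)
    nlinarith
  have hu : ‖(X + Y) / 2‖ ≤ 11 / 8 * ‖s‖ := by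
    have : (X + Y) / 2 = (x - b j) + s := by rw [P.hj, N.hx]; ring
    rw [this]
    refine (norm_add_le _ _).trans ?_
    linarith
  have hX : ‖X‖ ≤ 4 * ‖s‖ := by
    have : X = (X + Y) / 2 + (X - Y) / 2 := by ring
    rw [this]
    refine (norm_add_le _ _).trans ?_
    linarith
  have hY : ‖Y‖ ≤ 4 * ‖s‖ := by
    have : Y = (X + Y) / 2 - (X - Y) / 2 := by ring
    rw [this]
    refine (norm_sub_le _ _).trans ?_
    linarith
  have hm : ‖X‖ * ‖Y‖ = ‖s‖ ^ 2 := by rw [← norm_mul, N.hXY, norm_pow]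
  refine ⟨?_, hX, ?_, hY⟩
  · by_contra h0
    push Not at h0
    have := mul_lt_mul'' h0 (lt_of_le_of_ne hY ?_) (norm_nonneg _) (norm_nonneg _)
    · nlinarith
    · intro h4
      rw [h4] at hm
      nlinarith
  · by_contra h0
    push Not at h0
    have := mul_lt_mul'' (lt_of_le_of_ne hX ?_) h0 (norm_nonneg _) (norm_nonneg _)
    · nlinarith
    · intro h4
      rw [h4] at hm
      nlinarith

/-- outside of the ring the derivative vanishes; on it `|X - Y|/2 ≤ 4 |x - b j|` -/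
theorem ring_le (P : Pair b j j' e s r) (N : NPt e s x X Y) (h1 : hh b j ≤ 64 * ‖x - b j‖ ^ 2) :
    ‖(X - Y) / 2‖ ≤ 4 * ‖x - b j‖ := by
  have hs := P.s_pos
  have h2 := P.hh_ge
  have h3 : ‖s‖ ≤ 6 * ‖x - b j‖ := by
    refine le_of_sq_le_sq ?_ (by positivity)
    nlinarith
  have h4 : ‖x - b j'‖ ≤ _ := partner_le (x := x) P
  have h5 := geo_norm P N
  refine le_of_sq_le_sq ?_ (by positivity)
  rw [← h5]
  have := mul_le_mul_of_nonneg_left (h4.trans (by linarith : _ ≤ 16 * ‖x - b j‖))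
    (norm_nonneg (x - b j))
  nlinarith

/-- a direction at a point of the neck -/
structure NDir (β : Bs) (ζ : ℂ) (j j' : Fin 6) (s X Y lX lY δe : ℂ) (Δ : ℝ) : Prop where
  hβ : β j = δe + s * ((lX + lY) / 2)
  hβ' : β j' = δe - s * ((lX + lY) / 2)
  hζ : ζ = δe + (X * lX + Y * lY) / 2
  far : ∀ i, i ≠ j → i ≠ j' → ‖β i - δe‖ ≤ Δ

variable {β : Bs} {ζ lX lY δe : ℂ} {Δ : ℝ}

theorem NDir.symm (V : NDir β ζ j j' s X Y lX lY δe Δ) : NDir β ζ j' j (-s) X Y lX lY δe Δ :=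
  ⟨by rw [V.hβ']; ring, by rw [V.hβ]; ring, V.hζ, fun i h1 h2 => V.far i h2 h1⟩

theorem dchiW_zero (P : Pair b j j' e s r)
    (h : 64 * ‖x - b j‖ ^ 2 ≤ hh b j ∨ hh b j ≤ 32 * ‖x - b j‖ ^ 2) :
    fderiv ℝ (fun p : Bs × ℂ => chiW p.1 j p.2) (b, x) (β, ζ) = 0 := by
  rw [H604.fderiv_chiW_eq_zero P.hb h]; rfl

/-- **the derivative of the cut-off at a root of the pair** -/
theorem dchiW_neck (P : Pair b j j' e s r) (N : NPt e s x X Y)
    (V : NDir β ζ j j' s X Y lX lY δe Δ) :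
    |fderiv ℝ (fun p : Bs × ℂ => chiW p.1 j p.2) (b, x) (β, ζ)| ≤
      20 * C0 * (‖(lX - lY) / 2‖ + 8 * (‖s‖ / r) ^ 2 * (‖(lX + lY) / 2‖ + Δ / r)) := by
  have hs := P.s_pos
  have hr := P.r_pos
  have hC := C0_pos
  have hΔ : 0 ≤ Δ := by
    obtain ⟨i, hi, hi'⟩ : ∃ i : Fin 6, i ≠ j ∧ i ≠ j' := by
      have : ∀ j j' : Fin 6, ∃ i : Fin 6, i ≠ j ∧ i ≠ j' := by decide
      exact this j j'
    exact (norm_nonneg _).trans (V.far i hi hi')
  by_cases h0 : 64 * ‖x - b j‖ ^ 2 ≤ hh b j ∨ hh b j ≤ 32 * ‖x - b j‖ ^ 2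
  · rw [dchiW_zero P h0, abs_zero]
    positivity
  push Not at h0
  obtain ⟨h1, h2⟩ := h0
  have hR := ring_le P N h1.le
  have hxj : x ≠ b j := by
    rintro rfl
    rw [sub_self, norm_zero] at h1
    have := hh_pos P.hb j
    norm_num at h1
    linarith
  have hxj' : x - b j ≠ 0 := sub_ne_zero.2 hxj
  set l : ℂ := (lX + lY) / 2 with hl
  set η : ℂ := (lX - lY) / 2 with hη
  have e1 : (ζ - β j) / (x - b j) = l + η * (((X - Y) / 2) / (x - b j)) := by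
    have : ζ - β j = l * (x - b j) + η * ((X - Y) / 2) := by
      rw [V.hζ, V.hβ, P.hj, N.hx, hl, hη]; ring
    rw [this]; field_simp
  have n1 : ‖((X - Y) / 2) / (x - b j)‖ ≤ 4 := by
    rw [norm_div, div_le_iff₀ (norm_pos_iff.2 hxj')]
    exact hR
  have e2 : (β j' - β j) / (b j' - b j) = l := by
    have : b j' - b j ≠ 0 := sub_ne_zero.2 (P.hb.ne P.ne)
    rw [div_eq_iff this, V.hβ, V.hβ', P.hj, P.hj']; ring
  refine (abs_fderiv_chiW_le P.hb hxj β ζ).trans ?_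
  have hmem : j' ∈ univ.erase j := Finset.mem_erase.2 ⟨P.ne, mem_univ _⟩
  rw [← Finset.add_sum_erase _ _ hmem]
  have t1 : wt b j j' * ‖(ζ - β j) / (x - b j) - (β j' - β j) / (b j' - b j)‖ ≤ 4 * ‖η‖ := by
    rw [e1, e2, add_sub_cancel_left, norm_mul]
    have h3 := wt_le_one P.hb P.ne
    have h4 := wt_nonneg P.hb j j'
    calc _ ≤ 1 * (‖η‖ * 4) := by gcongr
      _ = _ := by ring
  have t2 : ∀ i ∈ (univ.erase j).erase j',
      wt b j i * ‖(ζ - β j) / (x - b j) - (β i - β j) / (b i - b j)‖ ≤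
        5 * (‖s‖ / r) ^ 2 * (2 * ‖l‖ + 4 * ‖η‖ + 2 * (Δ / r)) := by
    intro i hi
    rw [Finset.mem_erase, Finset.mem_erase] at hi
    have h3 := P.wt_le hi.2.1 hi.1
    have h4 := P.far' hi.2.1 hi.1
    have h5 : ‖(β i - β j) / (b i - b j)‖ ≤ 2 * (Δ / r) + ‖l‖ := by
      have h6 : ‖β i - β j‖ ≤ Δ + ‖s‖ * ‖l‖ := by
        have : β i - β j = (β i - δe) - s * l := by rw [V.hβ]; ring
        rw [this]
        refine (norm_sub_le _ _).trans ?_
        rw [norm_mul]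
        exact add_le_add_left (V.far i hi.2.1 hi.1) _
      rw [norm_div]
      calc _ ≤ (Δ + ‖s‖ * ‖l‖) / (63 / 64 * r) := div_le_div₀ (by positivity) h6 (by positivity) h4
        _ = 64 / 63 * (Δ / r) + 64 / 63 * (‖s‖ / r) * ‖l‖ := by field_simp
        _ ≤ _ := by
          have h7 : ‖s‖ / r ≤ 1 / 64 := by
            rw [div_le_iff₀ hr]; linarith [P.small]
          have h8 : 0 ≤ Δ / r := by positivity
          have h9 := mul_le_mul_of_nonneg_right h7 (norm_nonneg l)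
          linarith [norm_nonneg l]
    have h6 : ‖(ζ - β j) / (x - b j)‖ ≤ ‖l‖ + 4 * ‖η‖ := by
      rw [e1]
      refine (norm_add_le _ _).trans ?_
      rw [norm_mul]
      have := mul_le_mul_of_nonneg_left n1 (norm_nonneg η)
      linarith
    refine mul_le_mul h3 ?_ (norm_nonneg _) (by positivity)
    refine (norm_sub_le _ _).trans ?_
    linarith
  have t3 := Finset.sum_le_card_nsmul _ _ _ t2
  have hcard : ((univ.erase j).erase j').card = 4 := by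
    rw [Finset.card_erase_of_mem hmem, Finset.card_erase_of_mem (mem_univ _)]
    simp
  rw [hcard, nsmul_eq_mul] at t3
  have h7 : (‖s‖ / r) ^ 2 ≤ 1 / 4096 := by
    have h7 : ‖s‖ / r ≤ 1 / 64 := by
      rw [div_le_iff₀ hr]; linarith [P.small]
    calc _ ≤ (1 / 64 : ℝ) ^ 2 := pow_le_pow_left₀ (by positivity) h7 2
      _ = _ := by norm_num
  have h8 := mul_le_mul_of_nonneg_right h7 (norm_nonneg η)
  have h9 : ∀ S T : ℝ, S ≤ 4 * ‖η‖ → T ≤ ((4 : ℕ) : ℝ) * (5 * (‖s‖ / r) ^ 2 *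
      (2 * ‖l‖ + 4 * ‖η‖ + 2 * (Δ / r))) → S + T ≤
      5 * ‖η‖ + 40 * (‖s‖ / r) ^ 2 * (‖l‖ + Δ / r) := by
    intro S T hS hT
    push_cast at hT
    nlinarith [norm_nonneg η]
  calc _ ≤ 4 * C0 * (5 * ‖η‖ + 40 * (‖s‖ / r) ^ 2 * (‖l‖ + Δ / r)) :=
        mul_le_mul_of_nonneg_left (h9 _ _ t1 t3) (by positivity)
    _ = _ := by ring

end Neck

end Vale.Agent.P273.H174

end
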