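import Vale.Agent.P273.H174.Cut2

/-!
# P273, row ASY1: the cut-offs in the neck, in the notation of `H730.One1`

* `exists_pair`: the constants of a merged configuration;
* `etaP_neck`: the form with cut-offs in the neck: only the two roots of the pair contribute;
* `dchiW_nv`, `dchiW_euler`: the derivatives in the direction `nv` and in the Euler direction.
-/

noncomputable section

namespace Vale.Agent.P273.H174

open scoped ContDiff Topology
open Set Filter Finset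
open H681 (C6 XX)
open H730 (bd bw yl xn nv)
open H214 (Bs hh chiW Cf hh_pos hh_le chiW_eq_zero chiW_eq_one EWc EWv EIv Qj Pj Dj ff etaP FlatOn)
open H604 (chiI Rr)

theorem mem_Cf {b : C6} (hb : b ∈ XX) : b ∈ Cf := by
  intro i j h
  by_contra hij
  rcases lt_or_gt_of_ne hij with h1 | h1
  · have := hb i j h1 (by rw [h])
    rw [h] at this
    exact lt_irrefl _ this
  · have := hb j i h1 (by rw [h])
    rw [h] at this
    exact lt_irrefl _ this

section Other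

variable {b : Bs} {j j' : Fin 6} {e s x X Y : ℂ} {r c : ℝ}

/-- The discs of the other roots do not meet the neck. -/
theorem other (P : Pair b j j' e s r) (N : NPt e s x X Y) (hX : ‖X‖ ≤ r / 8) (hY : ‖Y‖ ≤ r / 8)
    {i : Fin 6} (h1 : i ≠ j) (h2 : i ≠ j') : hh b i < 32 * ‖x - b i‖ ^ 2 := by
  have hr := P.r_pos
  have h3 := P.far i h1 h2
  have h4 := H214.hh_le P.hb h1.symm
  have h5 : ‖b j - b i‖ ≤ 2 * ‖b i - e‖ := by
    have : b j - b i = s - (b i - e) := by rw [P.hj]; ring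
    rw [this]
    refine (norm_sub_le _ _).trans ?_
    linarith [P.small]
  have h6 : ‖b i - e‖ / 2 ≤ ‖x - b i‖ := by
    have h7 : ‖(X + Y) / 2‖ ≤ r / 8 := by
      rw [norm_div]
      have := norm_add_le X Y
      rw [show ‖(2 : ℂ)‖ = 2 by norm_num]
      linarith
    have h8 : b i - e = (X + Y) / 2 - (x - b i) := by rw [N.hx]; ring
    have h9 : ‖b i - e‖ ≤ ‖(X + Y) / 2‖ + ‖x - b i‖ := by
      rw [h8]; exact norm_sub_le _ _
    linarith
  have h7 := pow_le_pow_left₀ (norm_nonneg _) h5 2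
  have h8 : 0 < ‖b i - e‖ := by linarith
  have h9 := pow_le_pow_left₀ (by positivity) h6 2
  nlinarith [pow_pos h8 2]

theorem chiW_other (P : Pair b j j' e s r) (N : NPt e s x X Y) (hX : ‖X‖ ≤ r / 8)
    (hY : ‖Y‖ ≤ r / 8) {i : Fin 6} (h1 : i ≠ j) (h2 : i ≠ j') : chiW b i x = 0 :=
  chiW_eq_zero P.hb (other P N hX hY h1 h2).le

theorem dchiW_other (P : Pair b j j' e s r) (N : NPt e s x X Y) (hX : ‖X‖ ≤ r / 8)
    (hY : ‖Y‖ ≤ r / 8) {i : Fin 6} (h1 : i ≠ j) (h2 : i ≠ j') :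
    fderiv ℝ (fun q : Bs × ℂ => chiW q.1 i q.2) (b, x) = 0 :=
  H604.fderiv_chiW_eq_zero P.hb (Or.inr (other P N hX hY h1 h2).le)

theorem norm_le_Rr' (P : Pair b j j' e s r) (N : NPt e s x X Y) (hX : ‖X‖ ≤ 1) (hY : ‖Y‖ ≤ 1) :
    ‖x‖ ≤ Rr b := by
  have h1 := H604.norm_le_Rr b j
  have h2 := H604.norm_le_Rr b j'
  have h3 := H604.eight_le_Rr b
  have h4 : x = (b j + b j') / 2 + (X + Y) / 2 := by rw [N.hx, P.hj, P.hj']; ring
  have h5 := norm_add_le ((b j + b j') / 2) ((X + Y) / 2)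
  rw [← h4, norm_div, norm_div, show ‖(2 : ℂ)‖ = 2 by norm_num] at h5
  have h6 := norm_add_le (b j) (b j')
  have h7 := norm_add_le X Y
  linarith

theorem sum_pair {M : Type*} [AddCommMonoid M] (h : j' ≠ j) (f : Fin 6 → M)
    (h0 : ∀ i, i ≠ j → i ≠ j' → f i = 0) : ∑ i, f i = f j + f j' := by
  rw [← Finset.add_sum_erase _ _ (mem_univ j),
    ← Finset.add_sum_erase _ _ (Finset.mem_erase.2 ⟨h, mem_univ j'⟩), Finset.sum_eq_zero, add_zero]
  intro i hi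
  rw [Finset.mem_erase, Finset.mem_erase] at hi
  exact h0 i hi.2.1 hi.1

variable {H : Type*} [NormedAddCommGroup H] [NormedSpace ℝ H]
variable {O : Set Bs} {η : Bs → ℂ → ℂ → (Bs × ℂ →L[ℝ] H)} {A : Bs → (ℂ × ℂ →L[ℝ] H)}

/-- **the form with cut-offs in the neck** -/
theorem etaP_neck (hF : FlatOn O η A) (hO : b ∈ O) {y : ℂ} (P : Pair b j j' e s r)
    (N : NPt e s x X Y) (hX : ‖X‖ ≤ r / 8) (hY : ‖Y‖ ≤ r / 8) (hX1 : ‖X‖ ≤ 1) (hY1 : ‖Y‖ ≤ 1)
    (hff : ff (b, x) ≠ 0) (hy : y ^ 2 = ff (b, x)) :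
    etaP η A b x y = (1 - chiW b j x - chiW b j' x) • η b x y -
      (fderiv ℝ (fun q : Bs × ℂ => chiW q.1 j q.2) (b, x)).smulRight (A b (EWv b j x y)) -
      (fderiv ℝ (fun q : Bs × ℂ => chiW q.1 j' q.2) (b, x)).smulRight (A b (EWv b j' x y)) := by
  have h1 := norm_le_Rr' P N hX1 hY1
  rw [H604.etaP_formula hF hO hff hy, H604.chiI_eq_zero h1,
    H604.fderiv_chiI_eq_zero (Or.inl h1), sum_pair P.ne _ (fun i hi hi' => chiW_other P N hX hY hi hi'),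
    sum_pair P.ne (fun i => (fderiv ℝ (fun q : Bs × ℂ => chiW q.1 i q.2) (b, x)).smulRight
      (A b (EWv b i x y))) (fun i hi hi' => by
        simp only [dchiW_other P N hX hY hi hi']
        refine ContinuousLinearMap.ext fun w => ?_
        simp)]
  refine ContinuousLinearMap.ext fun w => ?_
  simp only [_root_.sub_apply, _root_.add_apply, _root_.smul_apply,
    ContinuousLinearMap.smulRight_apply, _root_.zero_apply, zero_mul, zero_smul]
  module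

/-- the coefficient of the flat form -/
theorem coef_neck (P : Pair b j j' e s r) :
    0 ≤ 1 - chiW b j x - chiW b j' x ∧ 1 - chiW b j x - chiW b j' x ≤ 1 := by
  have h1 := H214.chiW_nonneg b j x
  have h2 := H214.chiW_nonneg b j' x
  have h3 := H214.chiW_le_one b j x
  have h4 := H214.chiW_le_one b j' x
  refine ⟨?_, by linarith⟩
  by_cases h : 32 * ‖x - b j‖ ^ 2 ≤ hh b j
  · have h5 : hh b j' ≤ 32 * ‖x - b j'‖ ^ 2 := by
      have h6 := P.hh_le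
      have h7 := P.symm.hh_le
      rw [norm_neg] at h7
      have hs := P.s_pos
      have ha : ‖x - b j‖ ≤ 3 / 8 * ‖s‖ := by
        refine le_of_sq_le_sq ?_ (by positivity)
        nlinarith
      have hb : ‖s‖ ≤ ‖x - b j'‖ := by
        have h8 : 2 * s = (x - b j') - (x - b j) := by rw [P.hj, P.hj']; ring
        have h9 := norm_sub_le (x - b j') (x - b j)
        rw [← h8, norm_mul, show ‖(2 : ℂ)‖ = 2 by norm_num] at h9
        linarith
      have := pow_le_pow_left₀ (norm_nonneg _) hb 2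
      linarith [sq_nonneg ‖s‖]
    rw [chiW_eq_zero P.hb h5]
    linarith
  · push Not at h
    rw [chiW_eq_zero P.hb h.le]
    linarith

theorem norm_etaP_neck_le (hF : FlatOn O η A) (hO : b ∈ O) {y : ℂ} (P : Pair b j j' e s r)
    (N : NPt e s x X Y) (hX : ‖X‖ ≤ r / 8) (hY : ‖Y‖ ≤ r / 8) (hX1 : ‖X‖ ≤ 1) (hY1 : ‖Y‖ ≤ 1)
    (hff : ff (b, x) ≠ 0) (hy : y ^ 2 = ff (b, x)) (w : Bs × ℂ) :
    ‖etaP η A b x y w‖ ≤ ‖η b x y w‖ +
      |fderiv ℝ (fun q : Bs × ℂ => chiW q.1 j q.2) (b, x) w| * ‖A b (EWv b j x y)‖ +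
      |fderiv ℝ (fun q : Bs × ℂ => chiW q.1 j' q.2) (b, x) w| * ‖A b (EWv b j' x y)‖ := by
  rw [etaP_neck hF hO P N hX hY hX1 hY1 hff hy]
  simp only [_root_.sub_apply, _root_.smul_apply, ContinuousLinearMap.smulRight_apply]
  obtain ⟨h1, h2⟩ := coef_neck (x := x) P
  refine (norm_sub_le _ _).trans ?_
  rw [norm_smul, Real.norm_eq_abs]
  refine add_le_add ((norm_sub_le _ _).trans ?_) le_rfl
  rw [norm_smul, norm_smul, Real.norm_eq_abs, Real.norm_eq_abs, abs_of_nonneg h1]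
  refine add_le_add ?_ le_rfl
  calc _ ≤ 1 * ‖η b x y w‖ := mul_le_mul_of_nonneg_right h2 (norm_nonneg _)
    _ = _ := one_mul _

end Other

/-! ### the notation of `One1` -/

/-- the constants of a merged configuration -/
theorem exists_pair (k : Fin 5) {q₀ : C6} (h0 : q₀ ∈ H828.XD k) :
    ∃ U ∈ 𝓝 q₀, ∃ r : ℝ, 0 < r ∧ r ≤ 1 ∧ ∃ M : ℝ, 1 ≤ M ∧ ∀ q ∈ U, ∀ d : ℂ, 64 * ‖d‖ ≤ r →
      bd k q d ∈ XX →
      Pair (bd k q d) k.castSucc k.succ (q k.castSucc) (-d) r ∧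
      Pair (bd k q d) k.succ k.castSucc (q k.castSucc) d r ∧
      ‖q k.castSucc‖ ≤ M ∧ ∀ i, ‖bd k q d i‖ ≤ M := by
  have h1 : ∀ i, i ≠ k.castSucc → i ≠ k.succ → q₀ i ≠ q₀ k.castSucc := by
    intro i hi hi' h
    rcases lt_or_gt_of_ne hi with h2 | h2
    · have := h0.2 i k.castSucc h2 (Or.inl hi) (by rw [h])
      rw [h] at this
      exact lt_irrefl _ this
    · have := h0.2 k.castSucc i h2 (Or.inr hi') (by rw [h])
      rw [h] at this
      exact lt_irrefl _ this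
  obtain ⟨r, hr, hr1, hr2⟩ : ∃ r : ℝ, 0 < r ∧ r ≤ 1 ∧
      ∀ i, i ≠ k.castSucc → i ≠ k.succ → 3 * r ≤ ‖q₀ i - q₀ k.castSucc‖ := by
    have h2 : ∀ i, ∃ r : ℝ, 0 < r ∧
        (i ≠ k.castSucc → i ≠ k.succ → 3 * r ≤ ‖q₀ i - q₀ k.castSucc‖) := by
      intro i
      by_cases hi : i ≠ k.castSucc ∧ i ≠ k.succ
      · have := norm_pos_iff.2 (sub_ne_zero.2 (h1 i hi.1 hi.2))
        exact ⟨‖q₀ i - q₀ k.castSucc‖ / 3, by positivity, fun _ _ => by linarith⟩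
      · exact ⟨1, one_pos, fun h3 h4 => absurd ⟨h3, h4⟩ hi⟩
    choose f hf hf' using h2
    obtain ⟨i₀, -, hi₀⟩ := Finset.exists_min_image (univ : Finset (Fin 6)) f ⟨0, mem_univ _⟩
    refine ⟨min (f i₀) 1, lt_min (hf i₀) one_pos, min_le_right _ _, fun i hi hi' => ?_⟩
    have h3 := hf' i hi hi'
    have h4 := hi₀ i (mem_univ _)
    have h5 := min_le_left (f i₀) 1
    linarith
  refine ⟨Metric.ball q₀ r, Metric.ball_mem_nhds _ hr, r, hr, hr1, ‖q₀‖ + 2, by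
    linarith [norm_nonneg q₀], ?_⟩
  intro q hq d hd hb
  have hq' : ∀ i, ‖q i - q₀ i‖ ≤ r := fun i => by
    have h3 : ‖(q - q₀) i‖ ≤ ‖q - q₀‖ := norm_le_pi_norm (q - q₀) i
    rw [Pi.sub_apply] at h3
    have h4 : ‖q - q₀‖ < r := by rw [← dist_eq_norm]; exact hq
    linarith
  have e1 : bd k q d k.castSucc = q k.castSucc - d := by simp [bd, H828.pr]
  have e2 : bd k q d k.succ = q k.castSucc + d := by
    have : k.succ ≠ k.castSucc := (Fin.castSucc_lt_succ (i := k)).ne'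
    simp [bd, H828.pr, this]
  have e3 : ∀ i, i ≠ k.castSucc → i ≠ k.succ → bd k q d i = q i := fun i hi hi' => by
    simp [bd, H828.pr, hi, hi']
  have hfar : ∀ i, i ≠ k.castSucc → i ≠ k.succ → r ≤ ‖bd k q d i - q k.castSucc‖ := by
    intro i hi hi'
    rw [e3 i hi hi']
    have h3 := hr2 i hi hi'
    have h4 := hq' i
    have h5 := hq' k.castSucc
    have h6 : q₀ i - q₀ k.castSucc = (q i - q k.castSucc) - (q i - q₀ i) +
        (q k.castSucc - q₀ k.castSucc) := by ring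
    have h7 : ‖q₀ i - q₀ k.castSucc‖ ≤ ‖q i - q k.castSucc‖ + ‖q i - q₀ i‖ +
        ‖q k.castSucc - q₀ k.castSucc‖ := by
      rw [h6]
      exact (norm_add_le _ _).trans (add_le_add_left (norm_sub_le _ _) _)
    linarith
  have hC := mem_Cf hb
  have hne : k.succ ≠ k.castSucc := (Fin.castSucc_lt_succ (i := k)).ne'
  have hM : ∀ i, ‖q i‖ ≤ ‖q₀‖ + 1 := fun i => by
    have h3 := hq' i
    have h4 := norm_le_pi_norm q₀ i
    have h5 : ‖q i‖ ≤ ‖q i - q₀ i‖ + ‖q₀ i‖ := by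
      have : q i = (q i - q₀ i) + q₀ i := by ring
      calc ‖q i‖ = ‖(q i - q₀ i) + q₀ i‖ := by rw [← this]
        _ ≤ _ := norm_add_le _ _
    linarith
  refine ⟨⟨hC, hne, by rw [e1]; ring, by rw [e2]; ring, hfar, by rw [norm_neg]; exact hd⟩,
    ⟨hC, hne.symm, e2, e1, fun i hi hi' => hfar i hi' hi, hd⟩, by linarith [hM k.castSucc], ?_⟩
  intro i
  have hd1 : ‖d‖ ≤ 1 := by linarith
  by_cases hi : i = k.castSucc
  · subst hi
    rw [e1]
    have := norm_sub_le (q k.castSucc) d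
    linarith [hM k.castSucc]
  · by_cases hi' : i = k.succ
    · subst hi'
      rw [e2]
      have := norm_add_le (q k.castSucc) d
      linarith [hM k.castSucc]
    · rw [e3 i hi hi']
      linarith [hM i]

section One

variable {k : Fin 5} {q : C6} {d X Y : ℂ} {c r : ℝ}

theorem npt (h : X * Y = d ^ 2) : NPt (q k.castSucc) d (xn k q X Y) X Y := ⟨rfl, h⟩

theorem ndir (k : Fin 5) (δ : C6) (d X Y lX lY : ℂ) :
    NDir (nv k δ d X Y lX lY).1 (nv k δ d X Y lX lY).2 k.succ k.castSucc d X Y lX lY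
      (δ k.castSucc) (2 * ‖δ‖) := by
  have hne : k.succ ≠ k.castSucc := (Fin.castSucc_lt_succ (i := k)).ne'
  refine ⟨?_, ?_, rfl, fun i hi hi' => ?_⟩
  · simp [nv, bw, H828.pr, hne]
  · simp [nv, bw, H828.pr]
  · simp only [nv, bw, H828.pr, hi, hi', if_false]
    have h1 := norm_le_pi_norm δ i
    have h2 := norm_le_pi_norm δ k.castSucc
    refine (norm_sub_le _ _).trans ?_
    linarith

/-- the constant of `dchiW_nv` -/
def Kn (r : ℝ) : ℝ := 20 * C0 * (1 + 8 / r ^ 2 * (1 + 2 / r))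

theorem Kn_pos (hr : 0 < r) : 0 < Kn r := by
  have := C0_pos
  unfold Kn
  positivity

theorem dchiW_nv_aux {b : Bs} {j j' : Fin 6} {e s x : ℂ} {β : Bs} {ζ lX lY δe : ℂ} {Δ : ℝ}
    (P : Pair b j j' e s r) (N : NPt e s x X Y) (V : NDir β ζ j j' s X Y lX lY δe (2 * Δ))
    (hΔ : 0 ≤ Δ) :
    |fderiv ℝ (fun p : Bs × ℂ => chiW p.1 j p.2) (b, x) (β, ζ)| ≤
      Kn r * (‖lX - lY‖ + ‖s‖ ^ 2 * (Δ + ‖lX‖ + ‖lY‖)) := by
  have hr := P.r_pos
  have hC := C0_pos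
  refine (dchiW_neck P N V).trans ?_
  have h1 : ‖(lX - lY) / 2‖ ≤ ‖lX - lY‖ := by
    rw [norm_div, show ‖(2 : ℂ)‖ = 2 by norm_num]
    linarith [norm_nonneg (lX - lY)]
  have h2 : ‖(lX + lY) / 2‖ ≤ ‖lX‖ + ‖lY‖ := by
    rw [norm_div, show ‖(2 : ℂ)‖ = 2 by norm_num]
    have := norm_add_le lX lY
    linarith [norm_nonneg lX, norm_nonneg lY]
  have h3 : ‖(lX + lY) / 2‖ + 2 * Δ / r ≤ (1 + 2 / r) * (Δ + ‖lX‖ + ‖lY‖) := by
    have h4 : 0 ≤ 2 / r := by positivity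
    have h5 : 2 * Δ / r = 2 / r * Δ := by ring
    rw [h5]
    nlinarith [norm_nonneg lX, norm_nonneg lY, mul_nonneg h4 (norm_nonneg lX),
      mul_nonneg h4 (norm_nonneg lY)]
  have h4 : 8 * (‖s‖ / r) ^ 2 * (‖(lX + lY) / 2‖ + 2 * Δ / r) ≤
      8 / r ^ 2 * (1 + 2 / r) * (‖s‖ ^ 2 * (Δ + ‖lX‖ + ‖lY‖)) := by
    calc _ ≤ 8 * (‖s‖ / r) ^ 2 * ((1 + 2 / r) * (Δ + ‖lX‖ + ‖lY‖)) :=
          mul_le_mul_of_nonneg_left h3 (by positivity)
      _ = _ := by rw [div_pow]; ring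
  unfold Kn
  rw [mul_assoc (20 * C0)]
  refine mul_le_mul_of_nonneg_left ?_ (by positivity)
  have h5 : 0 ≤ 8 / r ^ 2 * (1 + 2 / r) := by positivity
  have h6 : 0 ≤ ‖s‖ ^ 2 * (Δ + ‖lX‖ + ‖lY‖) := by positivity
  have h7 := norm_nonneg (lX - lY)
  nlinarith [mul_nonneg h5 h7]

/-- **the derivative of the two cut-offs in the direction `nv`** -/
theorem dchiW_nv {e : ℂ} {x : ℂ} {δ : C6} {lX lY : ℂ} {b : Bs}
    (P : Pair b k.succ k.castSucc e d r) (N : NPt e d x X Y) :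
    |fderiv ℝ (fun p : Bs × ℂ => chiW p.1 k.succ p.2) (b, x) (nv k δ d X Y lX lY)| ≤
      Kn r * (‖lX - lY‖ + ‖d‖ ^ 2 * (‖δ‖ + ‖lX‖ + ‖lY‖)) ∧
    |fderiv ℝ (fun p : Bs × ℂ => chiW p.1 k.castSucc p.2) (b, x) (nv k δ d X Y lX lY)| ≤
      Kn r * (‖lX - lY‖ + ‖d‖ ^ 2 * (‖δ‖ + ‖lX‖ + ‖lY‖)) := by
  refine ⟨dchiW_nv_aux P N (ndir k δ d X Y lX lY) (norm_nonneg _), ?_⟩
  have := dchiW_nv_aux P.symm N.symm (ndir k δ d X Y lX lY).symm (norm_nonneg _)
  rw [norm_neg] at this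
  exact this

/-! ### the Euler direction -/

/-- the logarithmic derivative of `X` in the Euler direction -/
def lE (c : ℝ) (d X : ℂ) : ℝ := (yl c d)⁻¹ * Real.log (‖X‖ / c)

theorem lE_add (hc : 0 < c) (hd : d ≠ 0) (hXY : X * Y = d ^ 2) (hy : 0 < yl c d) :
    lE c d X + lE c d Y = -1 := by
  have hm : ‖X‖ * ‖Y‖ = ‖d‖ ^ 2 := by rw [← norm_mul, hXY, norm_pow]
  have hd' := norm_pos_iff.2 hd
  have hd2 : d ^ 2 ≠ 0 := pow_ne_zero _ hd
  have hX : 0 < ‖X‖ := norm_pos_iff.2 (by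
    rintro rfl
    rw [zero_mul] at hXY
    exact hd2 hXY.symm)
  have hY : 0 < ‖Y‖ := norm_pos_iff.2 (by
    rintro rfl
    rw [mul_zero] at hXY
    exact hd2 hXY.symm)
  have h1 : Real.log (‖X‖ / c) + Real.log (‖Y‖ / c) = -yl c d := by
    rw [← Real.log_mul (by positivity) (by positivity), yl,
      show ‖X‖ / c * (‖Y‖ / c) = (c / ‖d‖)⁻¹ ^ 2 by
        field_simp; linarith, Real.log_pow, Real.log_inv]
    push_cast; ring
  unfold lE
  rw [← mul_add, h1]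
  field_simp

theorem lE_nonpos (hc : 0 < c) (hX : ‖X‖ ≤ c) (hy : 0 < yl c d) : lE c d X ≤ 0 := by
  have h1 : Real.log (‖X‖ / c) ≤ 0 := Real.log_nonpos (by positivity) ((div_le_one hc).2 hX)
  have h2 : 0 ≤ (yl c d)⁻¹ := by positivity
  exact mul_nonpos_of_nonneg_of_nonpos h2 h1

theorem abs_lE_le (hc : 0 < c) (hd : d ≠ 0) (hXY : X * Y = d ^ 2) (hy : 0 < yl c d)
    (hX : ‖X‖ ≤ c) (hY : ‖Y‖ ≤ c) : |lE c d X| ≤ 1 ∧ |lE c d Y| ≤ 1 := by
  have h1 := lE_add hc hd hXY hy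
  have h2 := lE_nonpos (d := d) hc hX hy
  have h3 := lE_nonpos (d := d) hc hY hy
  rw [abs_le, abs_le]
  constructor <;> constructor <;> linarith

theorem abs_lE_sub_le (hc : 0 < c) (hd : d ≠ 0) (hy : 0 < yl c d)
    (h1 : ‖d‖ / 4 ≤ ‖X‖) (h2 : ‖X‖ ≤ 4 * ‖d‖) (h3 : ‖d‖ / 4 ≤ ‖Y‖) (h4 : ‖Y‖ ≤ 4 * ‖d‖) :
    |lE c d X - lE c d Y| ≤ 3 * (yl c d)⁻¹ := by
  have hd' := norm_pos_iff.2 hd
  have hX : 0 < ‖X‖ := by linarith
  have hY : 0 < ‖Y‖ := by linarith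
  have h5 : lE c d X - lE c d Y = (yl c d)⁻¹ * Real.log (‖X‖ / ‖Y‖) := by
    unfold lE
    rw [← mul_sub, ← Real.log_div (by positivity) (by positivity)]
    congr 2
    field_simp
  have h16 : Real.log 16 ≤ 3 := by
    rw [show (16 : ℝ) = 2 ^ 4 by norm_num, Real.log_pow]
    have := Real.log_two_lt_d9
    push_cast
    linarith
  have h6 : |Real.log (‖X‖ / ‖Y‖)| ≤ 3 := by
    rw [abs_le]
    constructor
    · have h7 : (16 : ℝ)⁻¹ ≤ ‖X‖ / ‖Y‖ := by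
        rw [le_div_iff₀ hY]; linarith
      have h8 := Real.log_le_log (by norm_num) h7
      rw [Real.log_inv] at h8
      linarith
    · have h7 : ‖X‖ / ‖Y‖ ≤ 16 := by
        rw [div_le_iff₀ hY]; linarith
      have h8 := Real.log_le_log (by positivity) h7
      linarith
  rw [h5, abs_mul, abs_of_nonneg (by positivity)]
  calc _ ≤ (yl c d)⁻¹ * 3 := mul_le_mul_of_nonneg_left h6 (by positivity)
    _ = _ := by ring

theorem sq_norm_le (hc : 0 < c) (hd : d ≠ 0) (hy : 0 < yl c d) :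
    ‖d‖ ^ 2 ≤ c ^ 2 * (yl c d)⁻¹ := by
  have hd' := norm_pos_iff.2 hd
  have h1 : ‖d‖ ^ 2 = c ^ 2 * Real.exp (-yl c d) := by
    rw [yl, Real.exp_neg, show (2 : ℝ) * Real.log (c / ‖d‖) = Real.log ((c / ‖d‖) ^ 2) by
      rw [Real.log_pow]; push_cast; ring, Real.exp_log (by positivity)]
    field_simp
  rw [h1]
  refine mul_le_mul_of_nonneg_left ?_ (by positivity)
  rw [Real.exp_neg]
  exact inv_anti₀ hy (by linarith [Real.add_one_le_exp (yl c d)])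

/-- **the derivatives of the two cut-offs in the Euler direction** -/
theorem dchiW_euler {e : ℂ} {x : ℂ} {b : Bs} (P : Pair b k.succ k.castSucc e d r)
    (N : NPt e d x X Y) (hc : 0 < c) (hd : d ≠ 0) (hy : 0 < yl c d) (hX : ‖X‖ ≤ c)
    (hY : ‖Y‖ ≤ c) :
    |fderiv ℝ (fun p : Bs × ℂ => chiW p.1 k.succ p.2) (b, x)
      (nv k 0 d X Y (lE c d X : ℂ) (lE c d Y : ℂ))| ≤ Kn r * (3 + 2 * c ^ 2) * (yl c d)⁻¹ ∧
    |fderiv ℝ (fun p : Bs × ℂ => chiW p.1 k.castSucc p.2) (b, x)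
      (nv k 0 d X Y (lE c d X : ℂ) (lE c d Y : ℂ))| ≤ Kn r * (3 + 2 * c ^ 2) * (yl c d)⁻¹ := by
  have hr := P.r_pos
  have hK := Kn_pos hr
  have h1 := abs_lE_le hc hd N.hXY hy hX hY
  have h2 := sq_norm_le (d := d) hc hd hy
  have hy' : 0 < (yl c d)⁻¹ := by positivity
  have key : ‖d‖ / 4 ≤ ‖X‖ ∧ ‖X‖ ≤ 4 * ‖d‖ ∧ ‖d‖ / 4 ≤ ‖Y‖ ∧ ‖Y‖ ≤ 4 * ‖d‖ →
      Kn r * (‖(lE c d X : ℂ) - (lE c d Y : ℂ)‖ +
        ‖d‖ ^ 2 * (‖(0 : C6)‖ + ‖(lE c d X : ℂ)‖ + ‖(lE c d Y : ℂ)‖)) ≤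
      Kn r * (3 + 2 * c ^ 2) * (yl c d)⁻¹ := by
    rintro ⟨h3, h4, h5, h6⟩
    have h7 := abs_lE_sub_le (X := X) (Y := Y) hc hd hy h3 h4 h5 h6
    have h8 : ‖(lE c d X : ℂ) - (lE c d Y : ℂ)‖ = |lE c d X - lE c d Y| := by
      rw [← Complex.ofReal_sub, Complex.norm_real, Real.norm_eq_abs]
    rw [h8, Complex.norm_real, Complex.norm_real, Real.norm_eq_abs, Real.norm_eq_abs, norm_zero,
      zero_add, mul_assoc]
    refine mul_le_mul_of_nonneg_left ?_ hK.le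
    have h9 : ‖d‖ ^ 2 * (|lE c d X| + |lE c d Y|) ≤ c ^ 2 * (yl c d)⁻¹ * 2 :=
      mul_le_mul h2 (by linarith [h1.1, h1.2]) (by positivity) (by positivity)
    linarith
  constructor
  · by_cases h : 32 * ‖x - b k.succ‖ ^ 2 ≤ hh b k.succ
    · exact (dchiW_nv P N).1.trans (key (window P N h))
    · push Not at h
      rw [H604.fderiv_chiW_eq_zero P.hb (Or.inr h.le)]
      simp only [_root_.zero_apply, abs_zero]
      positivity
  · by_cases h : 32 * ‖x - b k.castSucc‖ ^ 2 ≤ hh b k.castSucc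
    · have h' := window P.symm N.symm h
      rw [norm_neg] at h'
      exact (dchiW_nv P N).2.trans (key h')
    · push Not at h
      rw [H604.fderiv_chiW_eq_zero P.hb (Or.inr h.le)]
      simp only [_root_.zero_apply, abs_zero]
      positivity

end One

end Vale.Agent.P273.H174

end
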